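import Vale.Agent.P281.H64.Z.Defs

/-!
# P281: definitions for the statement on fibrations dominated by generically finite maps
-/

open Set
open Vale.Agent.P281 Vale.Agent.P281.H713.TZ.S
open Vale.Agent.P281.H64.Z
open Vale.Agent.P281.H64.Thin (IsThinSet)
open scoped Manifold ContDiff Topology

noncomputable section

namespace Vale.Agent.P281.H603.SG4

/-! ### Generically finite maps -/

section
variable (n : ℕ) {X₁ X : Type} [TopologicalSpace X₁] [Man n X₁]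
  [TopologicalSpace X] [Man n X]

/-- The Jacobian determinant of `u : X₁ → X` at `z`, in the charts at `x₁` and `u x₁`. -/
def jdet (u : X₁ → X) (x₁ z : X₁) : ℂ :=
  (fderiv ℂ (fun t => chartAt (Cm n) (u x₁) (u ((chartAt (Cm n) x₁).symm t)))
    (chartAt (Cm n) x₁ z)).det

/-- `K_(X₁) + Δ₁ ≤ u^*(K_X + Δ)` near `x₁`, for `u : X₁ → X`: `∏ |e_D ∘ u|^(Δ D)` is at most
`C |det du| ∏ |e_(D₁)|^(Δ₁ D₁)`, with the local equations `e` of the components of `Δ`, `Δ₁`. -/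
def LogLe (u : X₁ → X) (Δ₁ : Set X₁ → ℝ) (Δ : Set X → ℝ) (x₁ : X₁) : Prop :=
  ∀ (T₁ : Finset (Set X₁)) (T : Finset (Set X)) (e₁ : Set X₁ → X₁ → ℂ) (e : Set X → X → ℂ),
    (∀ D, D ∈ T₁ ↔ Δ₁ D ≠ 0) → (∀ D, D ∈ T ↔ Δ D ≠ 0) →
    (∀ D ∈ T₁, J.IsLocalEq (Cm n) D (e₁ D) x₁) → (∀ D ∈ T, J.IsLocalEq (Cm n) D (e D) (u x₁)) →
    ∃ C : ℝ, ∀ᶠ z in 𝓝 x₁, ∏ D ∈ T, ‖e D (u z)‖ ^ Δ D ≤
      C * ‖jdet n u x₁ z‖ * ∏ D ∈ T₁, ‖e₁ D z‖ ^ Δ₁ D

/-- `S` is closed, and contained in a countable union of thin closed sets. -/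
def Small (S : Set X) : Prop := IsClosed S ∧ ∃ H : ℕ → Set X, Thins n H ∧ S ⊆ ⋃ j, H j

/-- `B` is an analytic subset (locally the set of common zeros of holomorphic functions) of codimension
at least two (contained in a countable union of closed sets, which are locally contained in
submanifolds of codimension two). -/
def Codim2 (B : Set X) : Prop :=
  (∀ x, ∃ (U : Set X) (ι : Type) (h : ι → X → ℂ), IsOpen U ∧ x ∈ U ∧
    (∀ i, ∀ z ∈ U, Hol n (h i) z) ∧ ∀ z ∈ U, z ∈ B ↔ ∀ i, h i z = 0) ∧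
  IsClosed B ∧ ∃ H : ℕ → Set X, (∀ j, IsClosed (H j) ∧ ∀ x ∈ H j, ∃ g : Fin 2 → X → ℂ,
    (∀ a, Hol n (g a) x) ∧ (Function.Surjective fun (ξ : Cm n) (a : Fin 2) => df n (g a) x ξ) ∧
    ∀ᶠ z in 𝓝 x, z ∈ H j → ∀ a, g a z = 0) ∧ B ⊆ ⋃ j, H j

end

/-- `u : X₁ → X` is a holomorphic map. -/
def HolMap (n : ℕ) {X₁ X : Type} [TopologicalSpace X₁] [Man n X₁]
    [TopologicalSpace X] [Man n X] (u : X₁ → X) : Prop :=
  ContMDiff 𝓘(ℂ, Cm n) 𝓘(ℂ, Cm n) ω u

section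
variable (n p d : ℕ) {X₁ Y₁ X Y : Type} [TopologicalSpace X₁] [Man n X₁]
  [TopologicalSpace Y₁] [Man p Y₁] [TopologicalSpace X] [Man n X]
  [TopologicalSpace Y] [Man p Y]

/-- `κ(F₁, K_(F₁) + Δ₁|F₁) ≤ 0` for the very general fibres `F₁` of `f₁`, and `κ(F, K_F + Δ|F) ≥ 0` for
the very general fibres `F` of `f`. -/
def KapZero (f₁ : X₁ → Y₁) (Δ₁ : Set X₁ → ℝ) (f : X → Y) (Δ : Set X → ℝ) : Prop :=
  (ForAll n p d f₁ fun F _ _ i => Function.Injective i → kR n d i Δ₁ ≤ 0) ∧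
    ForAll n p d f fun F _ _ i => Function.Injective i → 0 ≤ kR n d i Δ

/-- There is a commutative square `f ∘ u = v ∘ f₁`, where `u : X₁ → X` and `v : Y₁ → Y` are
holomorphic, `u` is surjective, `dim X₁ = dim X`, `dim Y₁ = dim Y`, and, for some small closed subset
`S` of `Y` and some analytic subset `B` of `X` of codimension at least two: `v` is étale over `Y ∖ S`,
and

* `K_(X₁) + Δ₁ ≤ u^*(K_X + Δ)` over `X ∖ (f⁻¹(S) ∪ B)`; or
* `r = 0`, `KapZero`, `Δ` and `Δ₁` have no components which meet the fibres over `Y ∖ S`, and `u` is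
  étale over `X ∖ (f⁻¹(S) ∪ B ∪ ⋃ 𝒢)`, `𝒢` finitely many prime divisors (by Remmert's theorem, there
  are always such `B` and `𝒢`). -/
def Dominates (f₁ : X₁ → Y₁) (Δ₁ : Set X₁ → ℝ) (f : X → Y) (Δ : Set X → ℝ) (r : ℕ) : Prop :=
  ∃ (u : X₁ → X) (v : Y₁ → Y) (S : Set Y) (B : Set X),
    HolMap n u ∧ HolMap p v ∧ (∀ x₁, f (u x₁) = v (f₁ x₁)) ∧ Function.Surjective u ∧
    Small p S ∧ (∀ y₁, v y₁ ∉ S → jdet p v y₁ y₁ ≠ 0) ∧ Codim2 n B ∧
    ((∀ x₁, f (u x₁) ∉ S → u x₁ ∉ B → LogLe n u Δ₁ Δ x₁) ∨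
      r = 0 ∧ KapZero n p d f₁ Δ₁ f Δ ∧ (∀ x, f x ∉ S → ∀ D, Δ D ≠ 0 → x ∉ D) ∧
        (∀ x₁, f (u x₁) ∉ S → ∀ D, Δ₁ D ≠ 0 → x₁ ∉ D) ∧
        ∃ 𝒢 : Set (Set X), 𝒢.Finite ∧ (∀ D ∈ 𝒢, Prime n D) ∧
          ∀ x₁, f (u x₁) ∉ S → u x₁ ∉ B ∪ ⋃₀ 𝒢 → jdet n u x₁ x₁ ≠ 0)

end

/-! ### The fibres -/

/-- `F` is a product `T × H`, where `T = ℂ^a / Λ` is a complex torus (if `F` is compact), and `H` is a
compact simply connected symplectic manifold (see `Sympl`): `g : ℂ^a × H → F` is the covering, with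
local inverses `(ζ, ξ)`, which are holomorphic and immersive. -/
def TorSympl (d : ℕ) (F : Type) [TopologicalSpace F] [Man d F] : Prop :=
  ∃ (a h : ℕ) (H : Type) (_ : TopologicalSpace H) (_ : Man h H) (Λ : AddSubgroup (Cm a))
    (g : Cm a → H → F), a + h = d ∧ 2 ≤ h ∧ IsCover h (id : H → H) ∧ SimplyConnectedSpace H ∧
    Sympl h H ∧ (∀ y, ∃ z x, g z x = y) ∧ (∀ z x z' x', g z x = g z' x' ↔ z' - z ∈ Λ ∧ x = x') ∧
    ∀ z x, ∃ (ζ : F → Cm a) (ξ : F → H), ζ (g z x) = z ∧ ξ (g z x) = x ∧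
      ContinuousAt ξ (g z x) ∧ (∀ᶠ y in 𝓝 (g z x), g (ζ y) (ξ y) = y) ∧
      (∀ j, Hol d (fun y => ζ y j) (g z x)) ∧
      (∀ ψ, Hol h ψ x → Hol d (fun y => ψ (ξ y)) (g z x)) ∧
      ∀ v, (∀ j, df d (fun y => ζ y j) (g z x) v = 0) →
        (∀ ψ, Hol h ψ x → df d (fun y => ψ (ξ y)) (g z x) v = 0) → v = 0

/-- Off any countable family of thin closed sets there is a point `y` such that `P` holds for the fibre
of `f` over `y`, or for a connected finite étale covering of this fibre. -/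
def SomeFbr (n p d : ℕ) {X Y : Type} [TopologicalSpace X] [Man n X] [TopologicalSpace Y] [Man p Y]
    (f : X → Y) (P : ∀ (F : Type) [TopologicalSpace F] [Man d F], (F → X) → Prop) : Prop :=
  ∀ H : ℕ → Set Y, Thins p H → ∃ y, (∀ j, y ∉ H j) ∧ ∃ (F : Type) (_ : TopologicalSpace F)
    (_ : T2Space F) (_ : Man d F) (i : F → X), Fbr n d f y i ∧ P F i

/-- `X` is Kähler, and

* some very general fibre of `f` has a connected finite étale covering `F` such that the Gauss map of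
  `F` has rank at least `r`, or `F` is immersed in a complex torus and `r ≤ κ(F, K_F + Δ|F)`; or
* `r = 0`, and `f = g ∘ π`, where `π : X → Z` is a proper modification (for instance the identity), and
  some very general fibre of the fibration `g : Z → Y` has a connected finite étale covering which is
  the product of a complex torus or a point and a simply connected symplectic manifold (see
  `TorSympl`). -/
def Cls (n p d : ℕ) {X Y : Type} [TopologicalSpace X] [Man n X]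
    [TopologicalSpace Y] [Man p Y] (f : X → Y) (Δ : Set X → ℝ) (r : ℕ) : Prop :=
  Kahler n X ∧
    (SomeFbr n p d f (fun F _ _ i =>
        GaussRank d F r ∨ IsGen d F ∧ ((r : ℕ∞) : WithBot ℕ∞) ≤ kR n d i Δ) ∨
      r = 0 ∧ ∃ (Z : Type) (_ : TopologicalSpace Z) (_ : Man n Z) (g : Z → Y) (π : X → Z),
        Fibn n p g (fun _ => 0) ∧ IsModif (Cm n) π ∧ (∀ x, f x = g (π x)) ∧
        SomeFbr n p d g fun F _ _ _ => TorSympl d F)

end Vale.Agent.P281.H603.SG4
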