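import Vale.Agent.P281.H603.SG4.Stat
import Vale.Agent.P281.H702.Z.Br3

/-!
# P281: products of tori and symplectic manifolds, from the statement to the proof
-/

open Vale.Agent.P281 Vale.Agent.P281.H713.TZ.S
open Vale.Agent.P281.H64.Z
open scoped Manifold ContDiff Topology

noncomputable section

namespace Vale.Agent.P281.H603.SG4

theorem torSympl5 {d : ℕ} {F : Type} [TopologicalSpace F] [Man d F] (h : TorSympl d F) :
    H64.Z5.TorSympl d F := by
  obtain ⟨a, n, H, i₁, i₂, Λ, g, h1, h2, h3, h4, h5, h6, h7, h8⟩ := h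
  exact ⟨a, n, H, i₁, i₂, Λ, g, h1, h2, h3, h4, h5, h6, h7, h8⟩

theorem isTH_of {d : ℕ} {F : Type} [TopologicalSpace F] [Man d F] [IsManifold 𝓘(ℂ, Cm d) ω F]
    (h : TorSympl d F) : H83.HKT.IsTH d F :=
  H702.Z.isTH_of (torSympl5 h)

end Vale.Agent.P281.H603.SG4
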